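import Vale.Agent.P355.H70.AB4.D

namespace Vale.Agent.P355.H70.AB4

open Vale.Agent.P355 Vale.Agent.P355.H147 Vale.Agent.P355.H998.E

theorem c0 : CX 4 0 0 D cls mv 0 (Nat.add 0 11) := CX.ck 0 11 (by decide +kernel)

theorem c11 : CX 4 0 0 D cls mv 11 (Nat.add 11 22) := CX.ck 11 22 (by decide +kernel)

theorem cm0 : CX 4 0 0 D cls mv 0 33 := (c0).trans (c11)

end Vale.Agent.P355.H70.AB4
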